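import Vale.Agent.P269.G1.H984.DeZero

/-!
# [F], index at least two: `de n = 0` from finitely many numbers
-/

set_option autoImplicit false

namespace Vale.Agent.P269.G1.H984

open Finset.HasAntidiagonal (antidiagonal)
open Vale.Agent.P269.CI
open Polynomial (aeval)

variable {X : CompleteIntersection} {F : ℕ → ℕ → List (Ins X) → ℂ}

variable (hF : IsGW X F) (h1 : IsGenusOne F)

theorem b0_small_of (hX : 3 ≤ X.dim)
    (hz : ∀ k d : ℕ, 1 ≤ d → index X * d = k → k + 2 ≤ excess X →
      virasoro X F (k + 1) 1 d [] = 0) (p : ℕ)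
    (hp0 : 0 < p) (hp : p + 2 ≤ excess X) : b0 hF h1 p = 0 := by
  refine natCast_inj_ps (n := p + 1) (by omega) _ ?_
  have h2 : MvPowerSeries.constantCoeff ((frob hF h1).de (p + 1)) = 0 := by
    have h3 := congrArg MvPowerSeries.constantCoeff (vir_small hF h1 p)
    rw [map_neg] at h3
    rw [← neg_eq_zero, ← h3, ser, constantCoeff_toSer]
    ext d
    rw [PowerSeries.coeff_mk, map_zero]
    by_cases h : index X * d = p
    · have hd : 1 ≤ d := by
        rcases Nat.eq_zero_or_pos d with h0 | h0
        · subst h0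
          simp at h
          omega
        · exact h0
      exact hz p d hd h hp
    · exact vir_weight hF p d h
  rw [key0 hF h1 hX, h2, mul_zero]

theorem b0_all_of (hX : 3 ≤ X.dim) (hm : 1 ≤ excess X) (hi : 2 ≤ index X)
    (hz : ∀ k d : ℕ, 1 ≤ d → index X * d = k → k + 2 ≤ excess X →
      virasoro X F (k + 1) 1 d [] = 0) (p : ℕ) : b0 hF h1 p = 0 := by
  have hi' : excess X + 1 ≤ X.dim := by
    have h := index_eq X
    omega
  have hi0 : index X ≠ 0 := by omega
  obtain ⟨P, hmon, hdeg, hPE, hP0⟩ := exists_poly hF h1 hi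
  have hΛ := psi_zero hF h1 hi0 P hmon hdeg hPE
  have hφ := phi_zero hF h1 hi0 P hPE
  have hG := frob_getzler hF h1
  have hd1 := frob_de_one hF h1 hX
  have ho1 := frob_om_one hF h1
  have hlead : P.coeff (X.dim + 1) = 1 := by
    have h := hmon.coeff_natDegree
    rwa [hdeg] at h
  -- a general evaluation of sums at the origin
  have hev : ∀ g : ℕ → RR X,
      MvPowerSeries.constantCoeff (P.sum fun n c => c * g n) =
        MvPowerSeries.constantCoeff (g (X.dim + 1)) -
          PowerSeries.C (cq X) * PowerSeries.X * MvPowerSeries.constantCoeff (g (excess X)) := by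
    intro g
    rw [Polynomial.sum_over_range _ (fun n => zero_mul _), hdeg, Finset.sum_range_succ, map_add,
      map_mul, hlead, map_one, one_mul, map_sum]
    have h2 : ∀ i ∈ Finset.range (X.dim + 1),
        MvPowerSeries.constantCoeff (P.coeff i * g i) =
          if i = excess X then - (PowerSeries.C (cq X) * PowerSeries.X) *
            MvPowerSeries.constantCoeff (g (excess X)) else 0 := by
      intro i hir
      rw [map_mul, hP0 i (Finset.mem_range.mp hir)]
      split_ifs with h
      · rw [h]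
      · rw [zero_mul]
    rw [Finset.sum_congr rfl h2, Finset.sum_ite_eq' (Finset.range (X.dim + 1)) (excess X),
      if_pos (Finset.mem_range.mpr (by omega))]
    ring
  have hsum : X.dim + 1 = excess X + (X.dim + 1 - excess X) := by omega
  have hkill := killed (m := excess X) (ν := X.dim + 1 - excess X) (by omega) (by omega) (cq X)
    (cq_ne_zero hi0) (b0 hF h1) ?_ ?_
  · rcases Nat.lt_or_ge p (excess X - 1) with hp | hp
    · rcases Nat.eq_zero_or_pos p with h0 | h0
      · rw [h0]; exact b0_zero hF h1 hX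
      · exact b0_small_of hF h1 hX hz p h0 (by omega)
    · exact hkill p hp
  · intro j
    have h := congrArg MvPowerSeries.constantCoeff
      (sum_lin (derL (frob hF h1) ((frob hF h1).de 2)) P (frob hF h1).E hPE j)
    rw [hev fun n => derL (frob hF h1) ((frob hF h1).de 2) ((frob hF h1).E ^ (n + j)),
      map_zero, sub_eq_zero] at h
    rw [← hsum]
    exact h
  · intro j
    have h := congrArg MvPowerSeries.constantCoeff
      (a_poly2 (frob hF h1) hG hd1 ho1 P hPE hΛ hφ j)
    rw [hev fun n => (n : RR X) *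
      (frob hF h1).der ((frob hF h1).E ^ (n - 1 + j)) ((frob hF h1).de 2),
      map_zero, sub_eq_zero, map_mul, map_mul, map_natCast, map_natCast] at h
    rw [← hsum]
    have h' : ((X.dim + 1 : ℕ) : PowerSeries ℂ) * b0 hF h1 (X.dim + 1 - 1 + j) =
        PowerSeries.C (cq X) * PowerSeries.X * ((excess X : PowerSeries ℂ) *
          b0 hF h1 (excess X - 1 + j)) := h
    rw [h']
    ring

/-- **[F]**, index at least two: the defects vanish as soon as the finitely many numbers
`virasoro (ν d + 1) 1 d []`, `1 ≤ d`, `ν d ≤ m - 2`, vanish -/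
theorem de_zero_of (hX : 3 ≤ X.dim) (hm : 1 ≤ excess X) (hi : 2 ≤ index X)
    (hz : ∀ k d : ℕ, 1 ≤ d → index X * d = k → k + 2 ≤ excess X →
      virasoro X F (k + 1) 1 d [] = 0) (n : ℕ) : (frob hF h1).de n = 0 := by
  have hi0 : index X ≠ 0 := by omega
  have hG := frob_getzler hF h1
  have hd1 := frob_de_one hF h1 hX
  have ho1 := frob_om_one hF h1
  obtain ⟨b, hb⟩ := pow_basis hF h1 hi0
  set D := derL (frob hF h1) ((frob hF h1).de 2) with hD
  have hE : (frob hF h1).E = Eu hF h1 := rfl
  have hexp : ∀ x : AA hF h1, D x = ∑ q : Fin (X.dim + 1), b.repr x q * D (Eu hF h1 ^ (q : ℕ)) := by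
    intro x
    conv_lhs => rw [← b.sum_repr x]
    rw [map_sum]
    refine Finset.sum_congr rfl fun q _ => ?_
    rw [map_smul, smul_eq_mul, hb]
  have hcl : ∀ m' n' : ℕ, (frob hF h1).der (Eu hF h1 ^ m') (D (Eu hF h1 ^ n')) =
      (n' : RR X) * D (Eu hF h1 ^ (m' + n' - 1)) := fun m' n' =>
    (frob hF h1).closure hG hd1 ho1 m' n'
  have hder : ∀ (x : AA hF h1) (n' : ℕ), (frob hF h1).der x (D (Eu hF h1 ^ n')) =
      ∑ k : Fin (X.dim + 1), b.repr x k * ((n' : RR X) * D (Eu hF h1 ^ ((k : ℕ) + n' - 1))) := by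
    intro x n'
    have h2 : (frob hF h1).der x (D (Eu hF h1 ^ n')) =
        derL (frob hF h1) (D (Eu hF h1 ^ n')) x := rfl
    rw [h2]
    conv_lhs => rw [← b.sum_repr x]
    rw [map_sum]
    refine Finset.sum_congr rfl fun k _ => ?_
    rw [map_smul, smul_eq_mul, hb, derL_apply, hcl]
  have hpd : ∀ (i : Fin (X.dim + 1)) (f : RR X),
      MvPowerSeries.pderiv (PowerSeries ℂ) i f =
        (frob hF h1).der (QA.bas (consts hF h1) i) f := by
    intro i f
    have h2 : (frob hF h1).der (QA.bas (consts hF h1) i) f =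
        ∑ k, (QA.bas (consts hF h1) i : AA hF h1) k *
          MvPowerSeries.pderiv (PowerSeries ℂ) k f := rfl
    rw [h2, Finset.sum_eq_single i]
    · rw [QA.bas_apply, if_pos rfl, one_mul]
    · intro k _ hk
      rw [QA.bas_apply, if_neg hk, zero_mul]
    · intro h; exact absurd (Finset.mem_univ i) h
  have hode := ode_zero (n := X.dim + 1) (K := PowerSeries ℂ) (N := X.dim + 1)
    (fun p => D (Eu hF h1 ^ (p : ℕ))) (fun p => b0_all_of hF h1 hX hm hi hz p)
    (fun i p q => ∑ k : Fin (X.dim + 1), b.repr (QA.bas (consts hF h1) i) k *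
      (((p : ℕ) : RR X) * b.repr (Eu hF h1 ^ ((k : ℕ) + p - 1)) q)) (by
      intro i p
      rw [hpd, hder]
      simp only [Finset.sum_mul]
      rw [Finset.sum_comm]
      refine Finset.sum_congr rfl fun k _ => ?_
      rw [hexp (Eu hF h1 ^ ((k : ℕ) + p - 1)), Finset.mul_sum, Finset.mul_sum]
      exact Finset.sum_congr rfl fun q _ => by ring)
  have hDzero : ∀ x : AA hF h1, D x = 0 := by
    intro x
    rw [hexp x]
    exact Finset.sum_eq_zero fun q _ => by rw [hode q, mul_zero]
  cases n with
  | zero => exact de_zero0 _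
  | succ s =>
    have h2 := key' (frob hF h1) hG hd1 ho1 (s + 1)
    rw [Nat.add_sub_cancel] at h2
    have h3 : (frob hF h1).der ((frob hF h1).E ^ s) ((frob hF h1).de 2) = 0 := hDzero _
    rw [h3, mul_zero] at h2
    have h4 : (2 : ℚ) • (frob hF h1).de (s + 1) = 0 := by
      rw [Algebra.smul_def, map_ofNat, ← h2]
    have h5 := congrArg (fun x => (1 / 2 : ℚ) • x) h4
    simp only [smul_smul, smul_zero] at h5
    norm_num at h5
    exact h5

include hF h1 in
/-- the constraints on the small phase space, index at least two -/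
theorem virasoro_small_of (hX : 3 ≤ X.dim) (hm : 1 ≤ excess X) (hi : 2 ≤ index X)
    (hz : ∀ k d : ℕ, 1 ≤ d → index X * d = k → k + 2 ≤ excess X →
      virasoro X F (k + 1) 1 d [] = 0) (k d : ℕ)
    (L : List (Fin (X.dim + 1))) : virasoro X F (k + 1) 1 d (L.map (hpow X)) = 0 := by
  have h0 : ser (fun d L => virasoro X F (k + 1) 1 d L) = ser (X := X) (fun _ _ => 0) := by
    rw [vir_small hF h1, de_zero_of hF h1 hX hm hi hz, neg_zero]
    symm
    funext α
    change ((∏ i, (α i).factorial : ℕ) : ℚ)⁻¹ • (PowerSeries.mk fun _ => (0 : ℂ)) = 0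
    have : (PowerSeries.mk fun _ => (0 : ℂ)) = 0 := by
      ext; simp
    rw [this, smul_zero]
  exact ser_inj _ _ (symS_vir hF k) (fun _ _ _ _ => rfl) h0 d L

end Vale.Agent.P269.G1.H984
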